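import Mathlib
import Vale.Agent.Lib.PCP.Defs

/-!
# Parallel repetition of projection games (Dinur and Steurer), for games with a trivial question

For a projection game `G` (a list of constraints) and a nonnegative function `f` on left questions
and labels, `N G f` is the square of the norm of the average of `f` seen from the right questions,
and `Tn G f` the square of the norm of the total mass of `f`. If `N G f ≤ q * Tn G f` for all
nonnegative `f`, then the value of the game is at most `√q`, and this property is multiplicative.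
-/

namespace Vale.Agent.P333.NP

open Finset Vale.Agent.Lib.PCP

/-- Sum over a list. -/
def ls {γ : Type*} (G : List γ) (φ : γ → ℝ) : ℝ := (G.map φ).sum

section ls

variable {γ δ : Type*}

@[simp] theorem ls_nil (φ : γ → ℝ) : ls [] φ = 0 := rfl

@[simp] theorem ls_cons (a : γ) (G : List γ) (φ : γ → ℝ) : ls (a :: G) φ = φ a + ls G φ := rfl

theorem ls_append (G H : List γ) (φ : γ → ℝ) : ls (G ++ H) φ = ls G φ + ls H φ := by
  simp [ls]

theorem ls_map (G : List γ) (g : γ → δ) (φ : δ → ℝ) : ls (G.map g) φ = ls G fun c => φ (g c) := by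
  simp [ls, Function.comp_def]

theorem ls_congr {G : List γ} {φ ψ : γ → ℝ} (h : ∀ c ∈ G, φ c = ψ c) : ls G φ = ls G ψ := by
  unfold ls
  rw [List.map_congr_left h]

theorem ls_add (G : List γ) (φ ψ : γ → ℝ) : (ls G fun c => φ c + ψ c) = ls G φ + ls G ψ := by
  induction G with
  | nil => simp
  | cons a G ih => rw [ls_cons, ls_cons, ls_cons, ih]; ring

theorem ls_mul (G : List γ) (φ : γ → ℝ) (r : ℝ) : (ls G fun c => r * φ c) = r * ls G φ := by
  induction G with
  | nil => simp
  | cons a G ih => rw [ls_cons, ls_cons, ih]; ring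

theorem ls_zero (G : List γ) : (ls G fun _ => 0) = 0 := by
  induction G with
  | nil => rfl
  | cons a G ih => rw [ls_cons, ih, add_zero]

theorem ls_const (G : List γ) (r : ℝ) : (ls G fun _ => r) = G.length * r := by
  induction G with
  | nil => simp
  | cons a G ih => rw [ls_cons, ih, List.length_cons]; push_cast; ring

theorem ls_div (G : List γ) (φ : γ → ℝ) (r : ℝ) : (ls G fun c => φ c / r) = ls G φ / r := by
  simp only [div_eq_inv_mul, ls_mul]

theorem ls_mono {G : List γ} {φ ψ : γ → ℝ} (h : ∀ c ∈ G, φ c ≤ ψ c) : ls G φ ≤ ls G ψ := by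
  induction G with
  | nil => simp
  | cons a G ih =>
    rw [ls_cons, ls_cons]
    exact add_le_add (h a (by simp)) (ih fun c hc => h c (List.mem_cons_of_mem _ hc))

theorem ls_nonneg {G : List γ} {φ : γ → ℝ} (h : ∀ c ∈ G, 0 ≤ φ c) : 0 ≤ ls G φ := by
  have := ls_mono (G := G) (φ := fun _ => 0) (ψ := φ) h
  rwa [ls_zero] at this

theorem ls_sum {ι : Type*} (s : Finset ι) (G : List γ) (φ : ι → γ → ℝ) :
    (ls G fun c => ∑ i ∈ s, φ i c) = ∑ i ∈ s, ls G (φ i) := by
  induction G with
  | nil => simp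
  | cons a G ih => simp only [ls_cons, ih, Finset.sum_add_distrib]

theorem ls_comm (G : List γ) (H : List δ) (φ : γ → δ → ℝ) :
    (ls G fun c => ls H fun d => φ c d) = ls H fun d => ls G fun c => φ c d := by
  induction G with
  | nil => simp [ls_zero]
  | cons a G ih => simp only [ls_cons, ih, ls_add]

theorem ls_flatMap (G : List γ) (g : γ → List δ) (φ : δ → ℝ) :
    ls (G.flatMap g) φ = ls G fun c => ls (g c) φ := by
  induction G with
  | nil => rfl
  | cons a G ih => rw [List.flatMap_cons, ls_append, ls_cons, ih]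

/-- Cauchy-Schwarz. -/
theorem ls_cs (G : List γ) (φ ψ : γ → ℝ) :
    (ls G fun c => φ c * ψ c) ^ 2 ≤ (ls G fun c => φ c ^ 2) * ls G fun c => ψ c ^ 2 := by
  induction G with
  | nil => simp
  | cons a G ih =>
    simp only [ls_cons]
    set P := ls G fun c => φ c ^ 2
    set Q := ls G fun c => ψ c ^ 2
    set R := ls G fun c => φ c * ψ c
    have hP : 0 ≤ P := ls_nonneg fun c _ => sq_nonneg _
    have hQ : 0 ≤ Q := ls_nonneg fun c _ => sq_nonneg _
    have hR : |R| ≤ √P * √Q := by
      rw [← Real.sqrt_mul hP, ← Real.sqrt_sq_eq_abs]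
      exact Real.sqrt_le_sqrt ih
    have h1 : 2 * (φ a * ψ a) * R ≤ 2 * (|φ a| * |ψ a|) * (√P * √Q) := by
      calc 2 * (φ a * ψ a) * R ≤ |2 * (φ a * ψ a) * R| := le_abs_self _
        _ = 2 * (|φ a| * |ψ a|) * |R| := by rw [abs_mul, abs_mul, abs_mul]; simp
        _ ≤ _ := mul_le_mul_of_nonneg_left hR (by positivity)
    have h2 : 2 * (|φ a| * |ψ a|) * (√P * √Q) ≤ φ a ^ 2 * Q + ψ a ^ 2 * P := by
      have h3 := sq_nonneg (|φ a| * √Q - |ψ a| * √P)
      have h4 : (|φ a| * √Q) ^ 2 = φ a ^ 2 * Q := by rw [mul_pow, sq_abs, Real.sq_sqrt hQ]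
      have h5 : (|ψ a| * √P) ^ 2 = ψ a ^ 2 * P := by rw [mul_pow, sq_abs, Real.sq_sqrt hP]
      nlinarith
    nlinarith

theorem ls_pos_of_mem {G : List γ} {φ : γ → ℝ} (h : ∀ c ∈ G, 0 ≤ φ c) {a : γ} (ha : a ∈ G)
    (h0 : 0 < φ a) : 0 < ls G φ := by
  induction G with
  | nil => simp at ha
  | cons b G ih =>
    rw [ls_cons]
    rcases List.mem_cons.1 ha with rfl | ha
    · exact add_pos_of_pos_of_nonneg h0 (ls_nonneg fun c hc => h c (List.mem_cons_of_mem _ hc))
    · exact add_pos_of_nonneg_of_pos (h b (by simp))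
        (ih (fun c hc => h c (List.mem_cons_of_mem _ hc)) ha)

/-- Averaging over the classes of a key. -/
theorem ls_avg {κ : Type*} [DecidableEq κ] (G : List γ) (k : γ → κ) (y : γ → ℝ) :
    (ls G fun c => (ls G fun d => if k d = k c then y d else 0) /
      ls G fun d => if k d = k c then 1 else 0) = ls G y := by
  have h1 : ∀ c ∈ G, (ls G fun d => if k d = k c then y d else 0) /
      (ls G fun d => if k d = k c then 1 else 0) =
      ls G fun d => if k c = k d then y d / ls G fun e => if k e = k d then 1 else 0 else 0 := by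
    intro c _
    rw [← ls_div]
    refine ls_congr fun d _ => ?_
    by_cases h : k d = k c
    · rw [if_pos h, if_pos h.symm, h]
    · rw [if_neg h, if_neg (Ne.symm h), zero_div]
  rw [ls_congr h1, ls_comm]
  refine ls_congr fun d hd => ?_
  have h2 : (ls G fun c => if k c = k d then y d / ls G fun e => if k e = k d then 1 else 0 else 0)
      = (y d / ls G fun e => if k e = k d then 1 else 0) *
        ls G fun c => if k c = k d then 1 else 0 := by
    rw [← ls_mul]
    refine ls_congr fun c _ => ?_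
    split_ifs <;> simp
  rw [h2, div_mul_cancel₀]
  refine ne_of_gt (ls_pos_of_mem (fun c _ => ?_) hd (by simp))
  split_ifs <;> norm_num

end ls

section game

variable {α β S T : Type} [DecidableEq α] [DecidableEq β] [Fintype S] [Fintype T] [DecidableEq T]

/-- Mass of the label `t` for the constraint `c`. -/
def xf (f : α → S → ℝ) (c : α × β × (S → T)) (t : T) : ℝ :=
  ∑ s, if c.2.2 s = t then f c.1 s else 0

/-- Degree of a right question. -/
def dg (G : PG α β S T) (v : β) : ℝ := ls G fun c => if c.2.1 = v then 1 else 0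

/-- Average seen from the right question `v`. -/
noncomputable def Av (G : PG α β S T) (f : α → S → ℝ) (v : β) (t : T) : ℝ :=
  (ls G fun c => if c.2.1 = v then xf f c t else 0) / dg G v

/-- Square of the norm of the average. -/
noncomputable def N (G : PG α β S T) (f : α → S → ℝ) : ℝ :=
  ls G fun c => ∑ t, Av G f c.2.1 t ^ 2

/-- Square of the norm of the total mass. -/
def Tn (G : PG α β S T) (f : α → S → ℝ) : ℝ := ls G fun c => (∑ s, f c.1 s) ^ 2

/-- The norm of the game is at most `√q`. -/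
def Nrm (G : PG α β S T) (q : ℝ) : Prop := ∀ f : α → S → ℝ, (∀ u s, 0 ≤ f u s) →
  N G f ≤ q * Tn G f

variable (G : PG α β S T)

omit [DecidableEq α] [DecidableEq β] in
theorem sum_xf (f : α → S → ℝ) (c : α × β × (S → T)) : ∑ t, xf f c t = ∑ s, f c.1 s := by
  unfold xf
  rw [Finset.sum_comm]
  simp

omit [DecidableEq α] [DecidableEq β] [Fintype T] in
theorem xf_nonneg {f : α → S → ℝ} (hf : ∀ u s, 0 ≤ f u s) (c : α × β × (S → T)) (t : T) :
    0 ≤ xf f c t := by
  unfold xf
  refine Finset.sum_nonneg fun s _ => ?_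
  split_ifs
  · exact hf _ _
  · exact le_rfl

omit [DecidableEq α] [Fintype S] [Fintype T] [DecidableEq T] in
theorem dg_nonneg (v : β) : 0 ≤ dg G v := ls_nonneg fun c _ => by split_ifs <;> norm_num

omit [DecidableEq α] [Fintype S] [Fintype T] [DecidableEq T] in
theorem dg_pos {c : α × β × (S → T)} (hc : c ∈ G) : 0 < dg G c.2.1 :=
  ls_pos_of_mem (fun c _ => by split_ifs <;> norm_num) hc (by simp)

omit [DecidableEq α] [Fintype T] in
theorem Av_nonneg {f : α → S → ℝ} (hf : ∀ u s, 0 ≤ f u s) (v : β) (t : T) : 0 ≤ Av G f v t := by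
  refine div_nonneg (ls_nonneg fun c _ => ?_) (dg_nonneg G v)
  split_ifs
  · exact xf_nonneg hf c t
  · exact le_rfl

omit [DecidableEq α] in
theorem sum_Av (f : α → S → ℝ) (v : β) :
    ∑ t, Av G f v t = (ls G fun c => if c.2.1 = v then ∑ s, f c.1 s else 0) / dg G v := by
  unfold Av
  rw [← Finset.sum_div, ← ls_sum]
  congr 1
  refine ls_congr fun c _ => ?_
  split_ifs
  · exact sum_xf f c
  · simp

omit [DecidableEq α] in
/-- The average is a contraction. -/
theorem N_le_Tn {f : α → S → ℝ} (hf : ∀ u s, 0 ≤ f u s) : N G f ≤ Tn G f := by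
  unfold N Tn
  rw [← ls_avg G (fun c => c.2.1) (fun c => (∑ s, f c.1 s) ^ 2)]
  refine ls_mono fun c hc => ?_
  have h1 : ∑ t, Av G f c.2.1 t ^ 2 ≤ (∑ t, Av G f c.2.1 t) ^ 2 :=
    Finset.sum_sq_le_sq_sum_of_nonneg fun t _ => Av_nonneg G hf _ _
  refine h1.trans ?_
  rw [sum_Av]
  have hd : 0 < dg G c.2.1 := dg_pos G hc
  rw [div_pow, show (ls G fun d => if d.2.1 = c.2.1 then (1 : ℝ) else 0) = dg G c.2.1 from rfl,
    div_le_div_iff₀ (by positivity) hd]
  have h2 := ls_cs G (fun d => if d.2.1 = c.2.1 then (1 : ℝ) else 0)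
    (fun d => if d.2.1 = c.2.1 then ∑ s, f d.1 s else 0)
  have h3 : (ls G fun d => (if d.2.1 = c.2.1 then (1 : ℝ) else 0) *
      (if d.2.1 = c.2.1 then ∑ s, f d.1 s else 0)) =
      ls G fun d => if d.2.1 = c.2.1 then ∑ s, f d.1 s else 0 :=
    ls_congr fun d _ => by split_ifs <;> simp
  have h4 : (ls G fun d => (if d.2.1 = c.2.1 then (1 : ℝ) else 0) ^ 2) = dg G c.2.1 :=
    ls_congr fun d _ => by split_ifs <;> simp
  have h5 : (ls G fun d => (if d.2.1 = c.2.1 then ∑ s, f d.1 s else 0) ^ 2) =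
      ls G fun d => if d.2.1 = c.2.1 then (∑ s, f d.1 s) ^ 2 else 0 :=
    ls_congr fun d _ => by split_ifs <;> simp
  rw [h3, h4, h5] at h2
  nlinarith

/-! ### Linearity and monotonicity -/

omit [DecidableEq α] [Fintype T] in
theorem Av_add (f g : α → S → ℝ) (v : β) (t : T) :
    Av G (fun u s => f u s + g u s) v t = Av G f v t + Av G g v t := by
  unfold Av
  rw [← add_div, ← ls_add]
  congr 1
  refine ls_congr fun c _ => ?_
  split_ifs
  · unfold xf
    rw [← Finset.sum_add_distrib]
    refine Finset.sum_congr rfl fun s _ => ?_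
    split_ifs <;> simp
  · simp

omit [DecidableEq α] [Fintype T] in
theorem Av_mul (f : α → S → ℝ) (m : ℝ) (v : β) (t : T) :
    Av G (fun u s => m * f u s) v t = m * Av G f v t := by
  unfold Av
  rw [← mul_div_assoc, ← ls_mul]
  congr 1
  refine ls_congr fun c _ => ?_
  split_ifs
  · unfold xf
    rw [Finset.mul_sum]
    refine Finset.sum_congr rfl fun s _ => ?_
    split_ifs <;> simp
  · simp

omit [DecidableEq α] [Fintype T] in
theorem Av_sum {ι : Type*} (K : Finset ι) (g : ι → α → S → ℝ) (v : β) (t : T) :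
    Av G (fun u s => ∑ i ∈ K, g i u s) v t = ∑ i ∈ K, Av G (g i) v t := by
  unfold Av
  rw [← Finset.sum_div, ← ls_sum]
  congr 1
  refine ls_congr fun c _ => ?_
  split_ifs
  · unfold xf
    rw [Finset.sum_comm]
    refine Finset.sum_congr rfl fun s _ => ?_
    split_ifs <;> simp
  · simp

omit [DecidableEq α] [Fintype T] in
theorem Av_mono {f g : α → S → ℝ} (h : ∀ u s, f u s ≤ g u s) (v : β) (t : T) :
    Av G f v t ≤ Av G g v t := by
  refine div_le_div_of_nonneg_right (ls_mono fun c _ => ?_) (dg_nonneg G v)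
  split_ifs
  · refine Finset.sum_le_sum fun s _ => ?_
    split_ifs
    · exact h _ _
    · exact le_rfl
  · exact le_rfl

omit [DecidableEq α] in
theorem N_mono {f g : α → S → ℝ} (hf : ∀ u s, 0 ≤ f u s) (h : ∀ u s, f u s ≤ g u s) :
    N G f ≤ N G g := by
  refine ls_mono fun c _ => Finset.sum_le_sum fun t _ => ?_
  exact pow_le_pow_left₀ (Av_nonneg G hf _ _) (Av_mono G h _ _) 2

omit [DecidableEq α] in
theorem N_mul (f : α → S → ℝ) (m : ℝ) : N G (fun u s => m * f u s) = m ^ 2 * N G f := by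
  unfold N
  rw [← ls_mul]
  refine ls_congr fun c _ => ?_
  rw [Finset.mul_sum]
  refine Finset.sum_congr rfl fun t _ => ?_
  rw [Av_mul, mul_pow]

omit [DecidableEq α] in
theorem N_add_le (f g : α → S → ℝ) {θ : ℝ} (hθ : 0 < θ) :
    N G (fun u s => f u s + g u s) ≤ (1 + θ) * N G f + (1 + 1 / θ) * N G g := by
  unfold N
  rw [← ls_mul, ← ls_mul, ← ls_add]
  refine ls_mono fun c _ => ?_
  rw [Finset.mul_sum, Finset.mul_sum, ← Finset.sum_add_distrib]
  refine Finset.sum_le_sum fun t _ => ?_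
  rw [Av_add]
  set a := Av G f c.2.1 t
  set b := Av G g c.2.1 t
  have h1 : 0 ≤ (θ * a - b) ^ 2 / θ := by positivity
  have h2 : (θ * a - b) ^ 2 / θ = θ * a ^ 2 - 2 * a * b + 1 / θ * b ^ 2 := by
    field_simp
    ring
  nlinarith

/-! ### Values -/

omit [DecidableEq α] [DecidableEq β] [Fintype S] [Fintype T] in
theorem sat_eq (a : α → S) (b : β → T) :
    (G.sat a b : ℝ) = ls G fun c => if c.2.2 (a c.1) = b c.2.1 then 1 else 0 := by
  unfold PG.sat
  induction G with
  | nil => simp
  | cons c G ih =>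
    rw [List.countP_cons, ls_cons, ← ih]
    push_cast
    rw [add_comm]
    congr 1
    by_cases h : c.2.2 (a c.1) = b c.2.1 <;> simp [h]

omit [DecidableEq α] [Fintype T] in
theorem ls_Av (f : α → S → ℝ) (b : β → T) :
    (ls G fun c => Av G f c.2.1 (b c.2.1)) = ls G fun c => xf f c (b c.2.1) := by
  rw [← ls_avg G (fun c => c.2.1) (fun c => xf f c (b c.2.1))]
  refine ls_congr fun c _ => ?_
  unfold Av dg
  congr 1
  refine ls_congr fun d _ => ?_
  split_ifs with h
  · rw [h]
  · rfl

omit [DecidableEq α] in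
/-- The value is at most the norm. -/
theorem Nrm.sound [DecidableEq S] {q : ℝ} (h : Nrm G q) : G.Sound (√q) := by
  intro a b
  have h1 : ∀ u s, (0 : ℝ) ≤ (fun (u : α) (s : S) => if a u = s then (1 : ℝ) else 0) u s := by
    intro u s
    dsimp only
    split_ifs <;> norm_num
  have h2 := h _ h1
  set f : α → S → ℝ := fun u s => if a u = s then 1 else 0 with hf
  have h3 : (G.sat a b : ℝ) = ls G fun c => Av G f c.2.1 (b c.2.1) := by
    rw [ls_Av, sat_eq]
    refine ls_congr fun c _ => ?_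
    unfold xf
    rw [hf]
    simp only
    rw [Finset.sum_eq_single (a c.1)]
    · simp
    · intro s _ hs
      simp [Ne.symm hs]
    · intro h
      exact absurd (Finset.mem_univ _) h
  have h4 : Tn G f = G.length := by
    unfold Tn
    have : (ls G fun c => (∑ s, f c.1 s) ^ 2) = ls G fun _ => (1 : ℝ) :=
      ls_congr fun c _ => by simp [hf]
    rw [this, ls_const, mul_one]
  have h5 : (ls G fun c => Av G f c.2.1 (b c.2.1) ^ 2) ≤ N G f := by
    refine ls_mono fun c _ => ?_
    exact Finset.single_le_sum (f := fun t => Av G f c.2.1 t ^ 2) (fun t _ => sq_nonneg _)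
      (Finset.mem_univ _)
  have h6 := ls_cs G (fun _ => (1 : ℝ)) (fun c => Av G f c.2.1 (b c.2.1))
  simp only [one_mul, one_pow] at h6
  rw [ls_const, mul_one, ← h3] at h6
  have hn : (0 : ℝ) ≤ G.length := Nat.cast_nonneg _
  have h7 : (G.sat a b : ℝ) ^ 2 ≤ q * (G.length : ℝ) ^ 2 := by
    rw [h4] at h2
    nlinarith [mul_le_mul_of_nonneg_left (h5.trans h2) hn]
  have h8 : (G.sat a b : ℝ) = √((G.sat a b : ℝ) ^ 2) := (Real.sqrt_sq (Nat.cast_nonneg _)).symm
  rw [h8]
  refine (Real.sqrt_le_sqrt h7).trans (le_of_eq ?_)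
  rw [Real.sqrt_mul' _ (by positivity), Real.sqrt_sq hn]

/-- Fractional labellings are not better than labellings. -/
theorem N_frac [Nonempty S] [Nonempty T] {p : α → S → ℝ} (hp : ∀ u s, 0 ≤ p u s)
    (hp1 : ∀ u, ∑ s, p u s = 1) {η : ℝ} (hG : G.Sound η) : N G p ≤ η * G.length := by
  have hb : ∀ v : β, ∃ t : T, ∀ t', Av G p v t' ≤ Av G p v t := fun v =>
    Finite.exists_max (fun t => Av G p v t)
  choose b hb using hb
  set W : α → S → ℝ := fun u s => ls G fun d => if d.1 = u then
    (if d.2.2 s = b d.2.1 then 1 else 0) else 0 with hW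
  have ha : ∀ u : α, ∃ s : S, ∀ s', W u s' ≤ W u s := fun u =>
    Finite.exists_max (fun s => W u s)
  choose a ha using ha
  have h1 : N G p ≤ ls G fun c => Av G p c.2.1 (b c.2.1) := by
    refine ls_mono fun c hc => ?_
    have h2 : ∑ t, Av G p c.2.1 t = 1 := by
      rw [sum_Av]
      have h3 : (ls G fun d => if d.2.1 = c.2.1 then ∑ s, p d.1 s else 0) = dg G c.2.1 :=
        ls_congr fun d _ => by rw [hp1]
      rw [h3, div_self (dg_pos G hc).ne']
    calc ∑ t, Av G p c.2.1 t ^ 2 ≤ ∑ t, Av G p c.2.1 (b c.2.1) * Av G p c.2.1 t := by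
          refine Finset.sum_le_sum fun t _ => ?_
          rw [sq]
          exact mul_le_mul_of_nonneg_right (hb _ _) (Av_nonneg G hp _ _)
      _ = Av G p c.2.1 (b c.2.1) := by rw [← Finset.mul_sum, h2, mul_one]
  refine h1.trans ?_
  rw [ls_Av]
  refine le_trans ?_ (hG a b)
  rw [sat_eq, ← ls_avg G (fun c => c.1) (fun c => xf p c (b c.2.1)),
    ← ls_avg G (fun c => c.1) (fun c => if c.2.2 (a c.1) = b c.2.1 then (1 : ℝ) else 0)]
  refine ls_mono fun c hc => ?_
  refine div_le_div_of_nonneg_right ?_ (ls_nonneg fun d _ => by split_ifs <;> norm_num)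
  have h3 : (ls G fun d => if d.1 = c.1 then xf p d (b d.2.1) else 0) =
      ∑ s, p c.1 s * W c.1 s := by
    rw [hW]
    simp only
    simp_rw [← ls_mul]
    rw [← ls_sum]
    refine ls_congr fun d _ => ?_
    by_cases h : d.1 = c.1
    · simp only [if_pos h]
      unfold xf
      refine Finset.sum_congr rfl fun s _ => ?_
      rw [h]
      split_ifs <;> simp
    · simp [h]
  have h4 : (ls G fun d => if d.1 = c.1 then
      (if d.2.2 (a d.1) = b d.2.1 then (1 : ℝ) else 0) else 0) = W c.1 (a c.1) := by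
    rw [hW]
    refine ls_congr fun d _ => ?_
    by_cases h : d.1 = c.1
    · simp only [h]
    · simp [h]
  rw [h3, h4]
  calc ∑ s, p c.1 s * W c.1 s ≤ ∑ s, p c.1 s * W c.1 (a c.1) :=
        Finset.sum_le_sum fun s _ => mul_le_mul_of_nonneg_left (ha _ _) (hp _ _)
    _ = W c.1 (a c.1) := by rw [← Finset.sum_mul, hp1, one_mul]

/-! ### The base inequality -/

/-- If the value is at most `1 - γ` then the sum of the squares of the norm of the average and of
the norm of the mean is smaller than the trivial bound. -/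
theorem base [Nonempty S] [Nonempty T] {γ : ℝ} (hγ : 0 < γ) (hγ1 : γ ≤ 1) (hne : G ≠ [])
    (hG : G.Sound (1 - γ)) {f : α → S → ℝ} (hf : ∀ u s, 0 ≤ f u s) :
    N G f + (ls G fun c => ∑ s, f c.1 s) ^ 2 / G.length ≤ (2 - γ ^ 2 / 12) * Tn G f := by
  classical
  have hn : (0 : ℝ) < G.length := by
    have := List.length_pos_iff.2 hne
    exact_mod_cast this
  set F : α → ℝ := fun u => ∑ s, f u s with hF
  have hF0 : ∀ u, 0 ≤ F u := fun u => Finset.sum_nonneg fun s _ => hf u s
  obtain ⟨s0⟩ := ‹Nonempty S›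
  have : Nonempty S := ⟨s0⟩
  set p : α → S → ℝ := fun u s => if F u = 0 then (if s = s0 then 1 else 0) else f u s / F u
    with hp
  have hp0 : ∀ u s, 0 ≤ p u s := by
    intro u s
    rw [hp]
    dsimp only
    split_ifs
    · norm_num
    · norm_num
    · exact div_nonneg (hf u s) (hF0 u)
  have hp1 : ∀ u, ∑ s, p u s = 1 := by
    intro u
    rw [hp]
    dsimp only
    by_cases h : F u = 0
    · simp [h]
    · simp only [if_neg h]
      rw [← Finset.sum_div]
      exact div_self h
  have hfp : ∀ u s, f u s = F u * p u s := by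
    intro u s
    rw [hp]
    dsimp only
    by_cases h : F u = 0
    · rw [h, zero_mul]
      exact (Finset.sum_eq_zero_iff_of_nonneg fun s _ => hf u s).1 h s (Finset.mem_univ _)
    · rw [if_neg h, mul_div_cancel₀ _ h]
  set m : ℝ := (ls G fun c => F c.1) / G.length with hm
  have hm0 : 0 ≤ m := div_nonneg (ls_nonneg fun c _ => hF0 _) hn.le
  have hsum : (ls G fun c => F c.1) = m * G.length := by
    rw [hm, div_mul_cancel₀ _ hn.ne']
  set Q := Tn G f with hQ
  have hQ' : Q = ls G fun c => F c.1 ^ 2 := rfl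
  -- the variance
  set V := ls G fun c => (F c.1 - m) ^ 2 with hV
  have hV0 : 0 ≤ V := ls_nonneg fun c _ => sq_nonneg _
  have hVQ : V = Q - G.length * m ^ 2 := by
    have h1 : V = ls G fun c => (F c.1 ^ 2 + (-2 * m) * F c.1) + m ^ 2 :=
      ls_congr fun c _ => by ring
    rw [h1, ls_add, ls_add, ls_mul, ls_const, hsum, ← hQ']
    ring
  -- first bound
  have hN1 : N G f ≤ Q := N_le_Tn G hf
  -- second bound
  set h : α → S → ℝ := fun u s => |F u - m| * p u s with hh
  have hh0 : ∀ u s, 0 ≤ h u s := fun u s => mul_nonneg (abs_nonneg _) (hp0 u s)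
  have hN2 : N G f ≤ N G (fun u s => m * p u s + h u s) := by
    refine N_mono G hf fun u s => ?_
    rw [hfp u s, hh]
    dsimp only
    rw [← add_mul]
    refine mul_le_mul_of_nonneg_right ?_ (hp0 u s)
    linarith [le_abs_self (F u - m)]
  have hN3 := N_add_le G (fun u s => m * p u s) h (θ := γ / 2) (by positivity)
  rw [N_mul] at hN3
  have hN4 : N G h ≤ V := by
    refine (N_le_Tn G hh0).trans (le_of_eq ?_)
    refine ls_congr fun c _ => ?_
    rw [hh]
    dsimp only
    rw [← Finset.mul_sum, hp1, mul_one, sq_abs]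
  have hN5 : N G p ≤ (1 - γ) * G.length := N_frac G hp0 hp1 hG
  have hN6 : N G f ≤ (1 + γ / 2) * (m ^ 2 * ((1 - γ) * G.length)) + (1 + 1 / (γ / 2)) * V := by
    refine hN2.trans (hN3.trans ?_)
    have h1 : m ^ 2 * N G p ≤ m ^ 2 * ((1 - γ) * G.length) :=
      mul_le_mul_of_nonneg_left hN5 (sq_nonneg m)
    have h2 : (0 : ℝ) ≤ 1 + 1 / (γ / 2) := by positivity
    exact add_le_add (mul_le_mul_of_nonneg_left h1 (by positivity))
      (mul_le_mul_of_nonneg_left hN4 h2)
  have hmean : (ls G fun c => ∑ s, f c.1 s) ^ 2 / G.length = G.length * m ^ 2 := by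
    rw [show (ls G fun c => ∑ s, f c.1 s) = m * G.length from hsum]
    field_simp
  rw [hmean]
  set X := G.length * m ^ 2 with hX
  have hX0 : 0 ≤ X := by positivity
  have hQX : Q = X + V := by rw [hVQ]; ring
  have e1 : (1 + γ / 2) * (m ^ 2 * ((1 - γ) * G.length)) = (1 + γ / 2) * (1 - γ) * X := by
    rw [hX]; ring
  rw [e1] at hN6
  have e2 : (1 + γ / 2) * (1 - γ) ≤ 1 - γ / 2 := by nlinarith
  have e3 : (1 + 1 / (γ / 2)) ≤ 3 / γ := by
    rw [show 1 / (γ / 2) = 2 / γ by field_simp, show (3 : ℝ) / γ = 1 / γ + 2 / γ by ring]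
    have : (1 : ℝ) ≤ 1 / γ := by rw [le_div_iff₀ hγ]; linarith
    linarith
  have hN7 : N G f ≤ (1 - γ / 2) * X + 3 / γ * V :=
    hN6.trans (add_le_add (mul_le_mul_of_nonneg_right e2 hX0) (mul_le_mul_of_nonneg_right e3 hV0))
  have e4 : γ / 6 * (3 / γ * V) = V / 2 := by field_simp; ring
  have hN8 : γ / 6 * N G f ≤ γ / 6 * ((1 - γ / 2) * X) + V / 2 := by
    have := mul_le_mul_of_nonneg_left hN7 (by positivity : (0 : ℝ) ≤ γ / 6)
    rw [mul_add, e4] at this
    exact this
  have hN9 : (1 - γ / 6) * N G f ≤ (1 - γ / 6) * (X + V) :=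
    mul_le_mul_of_nonneg_left (hQX ▸ hN1) (by linarith)
  rw [hQX]
  nlinarith [mul_nonneg hγ.le hV0, mul_nonneg hγ.le hX0, mul_nonneg (sq_nonneg γ) hV0,
    mul_nonneg (sq_nonneg γ) hX0, mul_nonneg (mul_nonneg hγ.le (sub_nonneg.2 hγ1)) hV0]

end game

end Vale.Agent.P333.NP
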