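import Mathlib
import Vale.Agent.P333.NP.Par

/-!
# Parallel repetition: the trivial question, products and powers
-/

namespace Vale.Agent.P333.NP

open Finset Vale.Agent.Lib.PCP

/-- The game with a trivial right question. -/
def triv {r : ℕ} [NeZero r] (G : PG ℕ ℕ (Fin r) (Fin r)) : PG ℕ ℕ (Fin r) (Fin r) :=
  (G.map fun c => (c.1, c.2.1 + 1, c.2.2)) ++ G.map fun c => (c.1, 0, fun _ => 0)

/-- The product of two games. -/
def prodG {r q : ℕ} (G : PG ℕ ℕ (Fin r) (Fin r)) (H : PG ℕ ℕ (Fin q) (Fin q)) :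
    PG ℕ ℕ (Fin (r * q)) (Fin (r * q)) :=
  G.flatMap fun c => H.map fun d => (Nat.pair c.1 d.1, Nat.pair c.2.1 d.2.1,
    fun x => finProdFinEquiv (c.2.2 (finProdFinEquiv.symm x).1, d.2.2 (finProdFinEquiv.symm x).2))

/-- Powers of a game. -/
def powG {r : ℕ} (G : PG ℕ ℕ (Fin r) (Fin r)) : (k : ℕ) → PG ℕ ℕ (Fin (r ^ k)) (Fin (r ^ k))
  | 0 => [(0, 0, id)]
  | k + 1 => prodG (powG G k) G

section triv

variable {r : ℕ} [NeZero r] (G : PG ℕ ℕ (Fin r) (Fin r))

theorem triv_length : (triv G).length = 2 * G.length := by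
  simp [triv]
  ring

theorem triv_ne (h : G ≠ []) : triv G ≠ [] := by
  intro h1
  have := triv_length G
  rw [h1, List.length_nil] at this
  exact h (List.length_eq_zero_iff.1 (by omega))

theorem triv_perfect (h : G.Perfect) : (triv G).Perfect := by
  obtain ⟨a, b, hab⟩ := h
  have hall : ∀ c ∈ G, c.2.2 (a c.1) = b c.2.1 := by
    unfold PG.sat at hab
    rw [List.countP_eq_length] at hab
    intro c hc
    simpa using hab c hc
  refine ⟨a, fun v => if v = 0 then 0 else b (v - 1), ?_⟩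
  unfold PG.sat
  rw [List.countP_eq_length]
  intro c hc
  unfold triv at hc
  rw [List.mem_append, List.mem_map, List.mem_map] at hc
  rcases hc with ⟨d, hd, rfl⟩ | ⟨d, hd, rfl⟩
  · simp [hall d hd]
  · simp

theorem Av_triv_succ (f : ℕ → Fin r → ℝ) (v : ℕ) (t : Fin r) :
    Av (triv G) f (v + 1) t = Av G f v t := by
  unfold Av dg triv
  rw [ls_append, ls_append, ls_map, ls_map, ls_map, ls_map]
  simp only [Nat.add_right_cancel_iff, (Nat.succ_ne_zero v).symm, if_false, ls_zero, add_zero,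
    xf]

theorem Av_triv_zero (f : ℕ → Fin r → ℝ) (t : Fin r) :
    Av (triv G) f 0 t = if t = 0 then (ls G fun c => ∑ s, f c.1 s) / G.length else 0 := by
  unfold Av dg triv
  rw [ls_append, ls_append, ls_map, ls_map, ls_map, ls_map]
  simp only [Nat.succ_ne_zero, if_false, ls_zero, zero_add, if_true, ls_const, mul_one]
  split_ifs with h
  · subst h
    simp [xf]
  · have : ∀ c ∈ G, xf f (c.1, 0, fun _ => 0) t = (0 : ℝ) := by
      intro c _
      unfold xf
      simp [Ne.symm h]
    rw [ls_congr this, ls_zero, zero_div]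

theorem N_triv (f : ℕ → Fin r → ℝ) (hne : G ≠ []) :
    N (triv G) f = N G f + (ls G fun c => ∑ s, f c.1 s) ^ 2 / G.length := by
  have hn : (0 : ℝ) < G.length := by
    have := List.length_pos_iff.2 hne
    exact_mod_cast this
  have h1 : N (triv G) f = (ls G fun c => ∑ t, Av (triv G) f (c.2.1 + 1) t ^ 2) +
      ls G fun _ => ∑ t, Av (triv G) f 0 t ^ 2 := by
    unfold N
    conv_lhs => rw [show triv G = (G.map fun c => (c.1, c.2.1 + 1, c.2.2)) ++
      G.map fun c => (c.1, 0, fun _ => 0) from rfl]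
    rw [ls_append, ls_map, ls_map]
    rfl
  rw [h1]
  congr 1
  · refine ls_congr fun c _ => Finset.sum_congr rfl fun t _ => ?_
    rw [Av_triv_succ]
  · rw [ls_const]
    have : ∀ t : Fin r, Av (triv G) f 0 t ^ 2 =
        if t = 0 then ((ls G fun c => ∑ s, f c.1 s) / G.length) ^ 2 else 0 := by
      intro t
      rw [Av_triv_zero]
      split_ifs <;> simp
    rw [Finset.sum_congr rfl fun t _ => this t]
    simp only [Finset.sum_ite_eq', Finset.mem_univ, if_true]
    field_simp

theorem Tn_triv (f : ℕ → Fin r → ℝ) : Tn (triv G) f = 2 * Tn G f := by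
  unfold Tn triv
  rw [ls_append, ls_map, ls_map]
  ring

theorem triv_nrm {γ : ℝ} (hγ : 0 < γ) (hγ1 : γ ≤ 1) (hne : G ≠ []) (hG : G.Sound (1 - γ)) :
    Nrm (triv G) (1 - γ ^ 2 / 24) := by
  intro f hf
  rw [N_triv G f hne, Tn_triv]
  refine (base G hγ hγ1 hne hG hf).trans (le_of_eq ?_)
  ring

end triv

section prod

variable {r q : ℕ} (G : PG ℕ ℕ (Fin r) (Fin r)) (H : PG ℕ ℕ (Fin q) (Fin q))

theorem ls_prodG (φ : ℕ × ℕ × (Fin (r * q) → Fin (r * q)) → ℝ) : ls (prodG G H) φ =
    ls G fun c => ls H fun d => φ (Nat.pair c.1 d.1, Nat.pair c.2.1 d.2.1,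
      fun x => finProdFinEquiv (c.2.2 (finProdFinEquiv.symm x).1,
        d.2.2 (finProdFinEquiv.symm x).2)) := by
  unfold prodG
  rw [ls_flatMap]
  refine ls_congr fun c _ => ?_
  rw [ls_map]

theorem prodG_length : (prodG G H).length = G.length * H.length := by
  unfold prodG
  rw [List.length_flatMap]
  simp

theorem prodG_ne (hG : G ≠ []) (hH : H ≠ []) : prodG G H ≠ [] := by
  intro h
  have h1 := prodG_length G H
  rw [h, List.length_nil] at h1
  rcases Nat.mul_eq_zero.1 h1.symm with h2 | h2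
  · exact hG (List.length_eq_zero_iff.1 h2)
  · exact hH (List.length_eq_zero_iff.1 h2)

theorem prodG_perfect (hG : G.Perfect) (hH : H.Perfect) : (prodG G H).Perfect := by
  obtain ⟨a, b, hab⟩ := hG
  obtain ⟨a', b', hab'⟩ := hH
  have hall : ∀ c ∈ G, c.2.2 (a c.1) = b c.2.1 := by
    unfold PG.sat at hab
    rw [List.countP_eq_length] at hab
    intro c hc
    simpa using hab c hc
  have hall' : ∀ c ∈ H, c.2.2 (a' c.1) = b' c.2.1 := by
    unfold PG.sat at hab'
    rw [List.countP_eq_length] at hab'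
    intro c hc
    simpa using hab' c hc
  refine ⟨fun u => finProdFinEquiv (a u.unpair.1, a' u.unpair.2),
    fun v => finProdFinEquiv (b v.unpair.1, b' v.unpair.2), ?_⟩
  unfold PG.sat
  rw [List.countP_eq_length]
  intro c hc
  unfold prodG at hc
  rw [List.mem_flatMap] at hc
  obtain ⟨c, hcG, hc⟩ := hc
  rw [List.mem_map] at hc
  obtain ⟨d, hdH, rfl⟩ := hc
  simp [hall c hcG, hall' d hdH]

theorem dg_prodG (v v' : ℕ) : dg (prodG G H) (Nat.pair v v') = dg G v * dg H v' := by
  unfold dg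
  rw [ls_prodG]
  have h1 : ∀ c ∈ G, (ls H fun d => if Nat.pair c.2.1 d.2.1 = Nat.pair v v' then (1 : ℝ) else 0) =
      (ls H fun d => if d.2.1 = v' then (1 : ℝ) else 0) * (if c.2.1 = v then 1 else 0) := by
    intro c _
    by_cases h : c.2.1 = v
    · rw [if_pos h, mul_one]
      refine ls_congr fun d _ => ?_
      by_cases h' : d.2.1 = v'
      · rw [if_pos h', if_pos (by rw [h, h'])]
      · rw [if_neg h', if_neg]
        intro h2
        exact h' (Nat.pair_eq_pair.1 h2).2
    · rw [if_neg h, mul_zero]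
      have h3 : ∀ d ∈ H, (if Nat.pair c.2.1 d.2.1 = Nat.pair v v' then (1 : ℝ) else 0) = 0 := by
        intro d _
        rw [if_neg]
        intro h2
        exact h (Nat.pair_eq_pair.1 h2).1
      rw [ls_congr h3, ls_zero]
  rw [ls_congr h1, ls_mul, mul_comm]

/-- The inner function. -/
def inn (f : ℕ → Fin (r * q) → ℝ) (u : ℕ) (s : Fin r) : ℕ → Fin q → ℝ :=
  fun u' s' => f (Nat.pair u u') (finProdFinEquiv (s, s'))

theorem xf_prodG (f : ℕ → Fin (r * q) → ℝ) (c : ℕ × ℕ × (Fin r → Fin r))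
    (d : ℕ × ℕ × (Fin q → Fin q)) (t : Fin r) (t' : Fin q) :
    xf f (Nat.pair c.1 d.1, Nat.pair c.2.1 d.2.1,
      fun x => finProdFinEquiv (c.2.2 (finProdFinEquiv.symm x).1,
        d.2.2 (finProdFinEquiv.symm x).2)) (finProdFinEquiv (t, t')) =
    ∑ s, if c.2.2 s = t then xf (inn f c.1 s) d t' else 0 := by
  unfold xf
  rw [← (finProdFinEquiv (m := r) (n := q)).sum_comp, Fintype.sum_prod_type]
  refine Finset.sum_congr rfl fun s _ => ?_
  simp only [Equiv.symm_apply_apply, EmbeddingLike.apply_eq_iff_eq, Prod.mk.injEq]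
  by_cases h : c.2.2 s = t
  · simp only [h, true_and, if_true]
    rfl
  · simp [h]

theorem Av_prodG (f : ℕ → Fin (r * q) → ℝ) (v v' : ℕ) (t : Fin r) (t' : Fin q) :
    Av (prodG G H) f (Nat.pair v v') (finProdFinEquiv (t, t')) =
      Av G (fun u s => Av H (inn f u s) v' t') v t := by
  unfold Av
  rw [dg_prodG, ls_prodG, mul_comm (dg G v), ← div_div]
  congr 1
  rw [← ls_div]
  refine ls_congr fun c _ => ?_
  by_cases h : c.2.1 = v
  · rw [if_pos h]
    have h1 : ∀ d ∈ H, (if Nat.pair c.2.1 d.2.1 = Nat.pair v v' then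
        xf f (Nat.pair c.1 d.1, Nat.pair c.2.1 d.2.1,
          fun x => finProdFinEquiv (c.2.2 (finProdFinEquiv.symm x).1,
            d.2.2 (finProdFinEquiv.symm x).2)) (finProdFinEquiv (t, t')) else 0) =
        ∑ s, if c.2.2 s = t then (if d.2.1 = v' then xf (inn f c.1 s) d t' else 0) else 0 := by
      intro d _
      rw [xf_prodG]
      by_cases h' : d.2.1 = v'
      · simp only [h, h', if_true]
      · rw [if_neg]
        · simp [h']
        · intro h2
          exact h' (Nat.pair_eq_pair.1 h2).2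
    rw [ls_congr h1, ls_sum, Finset.sum_div]
    unfold xf
    refine Finset.sum_congr rfl fun s _ => ?_
    by_cases h2 : c.2.2 s = t
    · simp only [h2, if_true]
    · simp [h2, ls_zero]
  · rw [if_neg h]
    have h1 : ∀ d ∈ H, (if Nat.pair c.2.1 d.2.1 = Nat.pair v v' then
        xf f (Nat.pair c.1 d.1, Nat.pair c.2.1 d.2.1,
          fun x => finProdFinEquiv (c.2.2 (finProdFinEquiv.symm x).1,
            d.2.2 (finProdFinEquiv.symm x).2)) (finProdFinEquiv (t, t')) else 0) = 0 := by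
      intro d _
      rw [if_neg]
      intro h2
      exact h (Nat.pair_eq_pair.1 h2).1
    rw [ls_congr h1, ls_zero, zero_div]

/-- The norm is multiplicative. -/
theorem prodG_nrm {x y : ℝ} (hx : 0 ≤ x) (hG : Nrm G x) (hH : Nrm H y) :
    Nrm (prodG G H) (x * y) := by
  intro f hf
  have hinn : ∀ u s u' s', 0 ≤ inn f u s u' s' := fun u s u' s' => hf _ _
  have h1 : N (prodG G H) f = ls H fun d => ∑ t', N G fun u s => Av H (inn f u s) d.2.1 t' := by
    unfold N
    rw [ls_prodG, ls_comm]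
    refine ls_congr fun d _ => ?_
    rw [← ls_sum]
    refine ls_congr fun c _ => ?_
    rw [← (finProdFinEquiv (m := r) (n := q)).sum_comp, Fintype.sum_prod_type_right]
    refine Finset.sum_congr rfl fun t' _ => Finset.sum_congr rfl fun t _ => ?_
    rw [Av_prodG]
  have h2 : ∀ (v' : ℕ) (t' : Fin q), N G (fun u s => Av H (inn f u s) v' t') ≤
      x * ls G fun c => (Av H (fun u' s' => ∑ s, inn f c.1 s u' s') v' t') ^ 2 := by
    intro v' t'
    refine (hG _ fun u s => Av_nonneg H (hinn u s) v' t').trans (le_of_eq ?_)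
    congr 1
    refine ls_congr fun c _ => ?_
    rw [Av_sum]
  have h3 : N (prodG G H) f ≤
      x * ls G fun c => N H (fun u' s' => ∑ s, inn f c.1 s u' s') := by
    rw [h1]
    have h4 : (ls G fun c => N H (fun u' s' => ∑ s, inn f c.1 s u' s')) =
        ls H fun d => ∑ t', ls G fun c =>
          (Av H (fun u' s' => ∑ s, inn f c.1 s u' s') d.2.1 t') ^ 2 := by
      unfold N
      rw [ls_comm]
      refine ls_congr fun d _ => ?_
      rw [ls_sum]
    rw [h4, ← ls_mul]
    refine ls_mono fun d _ => ?_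
    rw [Finset.mul_sum]
    exact Finset.sum_le_sum fun t' _ => h2 _ _
  refine h3.trans ?_
  have h5 : (ls G fun c => N H (fun u' s' => ∑ s, inn f c.1 s u' s')) ≤
      y * Tn (prodG G H) f := by
    unfold Tn
    rw [ls_prodG, ← ls_mul]
    refine ls_mono fun c _ => ?_
    refine (hH _ fun u' s' => Finset.sum_nonneg fun s _ => hinn _ _ _ _).trans (le_of_eq ?_)
    congr 1
    refine ls_congr fun d _ => ?_
    congr 1
    rw [← (finProdFinEquiv (m := r) (n := q)).sum_comp, Fintype.sum_prod_type_right]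
    rfl
  calc x * (ls G fun c => N H (fun u' s' => ∑ s, inn f c.1 s u' s'))
      ≤ x * (y * Tn (prodG G H) f) := mul_le_mul_of_nonneg_left h5 hx
    _ = x * y * Tn (prodG G H) f := by ring

end prod

section pow

variable {r : ℕ} (G : PG ℕ ℕ (Fin r) (Fin r))

theorem powG_ne (hG : G ≠ []) (k : ℕ) : powG G k ≠ [] := by
  induction k with
  | zero => exact List.cons_ne_nil _ _
  | succ k ih => exact prodG_ne _ _ ih hG

theorem powG_perfect (hG : G.Perfect) (k : ℕ) : (powG G k).Perfect := by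
  induction k with
  | zero => exact ⟨fun _ => ⟨0, by simp⟩, fun _ => ⟨0, by simp⟩, by simp [PG.sat, powG]⟩
  | succ k ih => exact prodG_perfect _ _ ih hG

theorem powG_nrm {x : ℝ} (hx : 0 ≤ x) (hG : Nrm G x) (k : ℕ) : Nrm (powG G k) (x ^ k) := by
  induction k with
  | zero =>
    intro f hf
    refine (N_le_Tn _ hf).trans (le_of_eq ?_)
    rw [pow_zero x, one_mul]
  | succ k ih => exact prodG_nrm _ _ (pow_nonneg hx k) ih hG

end pow

/-- Powers of a game with a trivial question have small value. -/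
theorem exists_pow {γ η : ℝ} (hγ : 0 < γ) (hγ1 : γ ≤ 1) (hη : 0 < η) : ∃ k : ℕ,
    ∀ (r : ℕ) [NeZero r] (G : PG ℕ ℕ (Fin r) (Fin r)), G ≠ [] → G.Sound (1 - γ) →
      (powG (triv G) k).Sound η := by
  have h0 : (0 : ℝ) ≤ 1 - γ ^ 2 / 24 := by nlinarith
  have h1 : (1 : ℝ) - γ ^ 2 / 24 < 1 := by
    have := pow_pos hγ 2
    linarith
  obtain ⟨k, hk⟩ := exists_pow_lt_of_lt_one (pow_pos hη 2) h1
  refine ⟨k, fun r _ G hne hG => ?_⟩
  have h2 := (powG_nrm (triv G) h0 (triv_nrm G hγ hγ1 hne hG) k).sound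
  intro a b
  refine (h2 a b).trans (mul_le_mul_of_nonneg_right ?_ (Nat.cast_nonneg _))
  rw [Real.sqrt_le_left hη.le]
  exact hk.le

end Vale.Agent.P333.NP
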