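import Mathlib
import Vale.Agent.P333.NP.Rep
import Vale.Agent.Lib.PCP.LC
import Vale.Agent.Lib.PCP.HA.MapSound
import Vale.Agent.Lib.PCP.HA.MapRest
import Vale.Agent.Lib.PCP.HA.Clone
import Vale.Agent.Lib.PCP.HA.BoundedX

/-!
# From gap constraint graphs to gap systems of linear equations
-/

namespace Vale.Agent.P333.NP

open Vale.Agent.Lib.PCP Vale.Agent.P333

section lab

variable {S : Type} {r : ℕ} (e : S × S ≃ Fin r) (s0 : S)

/-- The projection with numbered labels. -/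
def conv (π : S × S → S) : Fin r → Fin r := fun x => e (π (e.symm x), s0)

variable [DecidableEq S]

/-- The clause-variable game with numbered labels. -/
noncomputable def lcN (s0 s1 : S) (G : CG S) : PG ℕ ℕ (Fin r) (Fin r) :=
  (lc s0 s1 G).map fun c => (c.1, c.2.1, conv e s0 c.2.2)

theorem lcN_ne {s0 s1 : S} {G : CG S} (h : G ≠ []) : lcN e s0 s1 G ≠ [] := by
  intro h1
  exact lc_ne_nil h (List.map_eq_nil_iff.1 h1)

theorem lcN_perfect {s0 s1 : S} {G : CG S} (h : Sat G) : (lcN e s0 s1 G).Perfect := by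
  obtain ⟨a, b, hab⟩ := lc_perfect (s0 := s0) (s1 := s1) h
  refine ⟨fun u => e (a u), fun v => e (b v, s0), ?_⟩
  have hall : ∀ c ∈ lc s0 s1 G, c.2.2 (a c.1) = b c.2.1 := by
    unfold PG.sat at hab
    rw [List.countP_eq_length] at hab
    intro c hc
    simpa using hab c hc
  unfold PG.sat
  rw [List.countP_eq_length]
  intro c hc
  unfold lcN at hc
  rw [List.mem_map] at hc
  obtain ⟨d, hd, rfl⟩ := hc
  simp [conv, hall d hd]

theorem lcN_sound {s0 s1 : S} (hs : s0 ≠ s1) {G : CG S} {g : ℝ} (h : Gap G g) :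
    (lcN e s0 s1 G).Sound (1 - g / 2) := by
  intro a b
  have h1 := lc_sound hs h (fun u => e.symm (a u)) (fun v => (e.symm (b v)).1)
  have h2 : (lcN e s0 s1 G).length = (lc s0 s1 G).length := by simp [lcN]
  rw [h2]
  refine le_trans ?_ h1
  have h3 : (lcN e s0 s1 G).sat a b ≤
      (lc s0 s1 G).sat (fun u => e.symm (a u)) (fun v => (e.symm (b v)).1) := by
    unfold PG.sat lcN
    rw [List.countP_map]
    refine List.countP_mono_left fun c _ hc => ?_
    have hc' : e (c.2.2 (e.symm (a c.1)), s0) = b c.2.1 := of_decide_eq_true hc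
    refine decide_eq_true ?_
    dsimp only
    rw [← hc']
    simp
  exact_mod_cast h3

end lab

/-- The system of linear equations. -/
noncomputable def sysOf {r : ℕ} [NeZero r] (M k D : ℕ) (G : PG ℕ ℕ (Fin r) (Fin r)) : List Eqn :=
  HA.clMap D (HA.haMap (r ^ k) M (powG (triv G) k))

theorem sysOf_ne {r : ℕ} [NeZero r] {M : ℕ} (hM : 0 < M) (k D : ℕ) {G : PG ℕ ℕ (Fin r) (Fin r)}
    (hG : G ≠ []) : sysOf M k D G ≠ [] := by
  intro h
  have h1 := HA.clMap_length (D := D) (HA.haMap (r ^ k) M (powG (triv G) k))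
  unfold sysOf at h
  rw [h, HA.haMap_length, List.length_nil] at h1
  have h2 : 0 < (powG (triv G) k).length := List.length_pos_iff.2 (powG_ne _ (triv_ne G hG) k)
  have h3 : 0 < (powG (triv G) k).length * (2 ^ r ^ k * (2 ^ r ^ k * M ^ r ^ k)) * (8 ^ D) ^ 3 := by
    positivity
  omega

theorem sysOf_bounded {r : ℕ} [NeZero r] (M k D : ℕ) (G : PG ℕ ℕ (Fin r) (Fin r)) :
    Bounded ((8 ^ D) ^ 3) (sysOf M k D G) := HA.clMap_bounded _ (HA.haMap_dist3 _)

theorem sysOf_complete {r : ℕ} [NeZero r] {M : ℕ} (hM : 0 < M) (k D : ℕ)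
    {G : PG ℕ ℕ (Fin r) (Fin r)} (hG : G.Perfect) :
    (minViolated (sysOf M k D G) : ℝ) * M ≤ (sysOf M k D G).length := by
  have h1 := HA.haMap_perfect hM _ (powG_perfect _ (triv_perfect G hG) k)
  have h2 := HA.clMap_complete (D := D) (HA.haMap (r ^ k) M (powG (triv G) k))
  have h3 := HA.clMap_length (D := D) (HA.haMap (r ^ k) M (powG (triv G) k))
  unfold sysOf
  rw [h3]
  push_cast
  have h2' : (minViolated (HA.clMap D (HA.haMap (r ^ k) M (powG (triv G) k))) : ℝ) ≤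
      ((8 : ℝ) ^ D) ^ 3 * minViolated (HA.haMap (r ^ k) M (powG (triv G) k)) := by
    exact_mod_cast h2
  have h4 : (0 : ℝ) ≤ (8 ^ D) ^ 3 := by positivity
  have h5 := mul_le_mul_of_nonneg_right h2' (Nat.cast_nonneg (α := ℝ) M)
  have h6 := mul_le_mul_of_nonneg_left h1 h4
  nlinarith

theorem sysOf_sound {r : ℕ} [NeZero r] {M : ℕ} (hM : 2 ≤ M) (k D : ℕ)
    {G : PG ℕ ℕ (Fin r) (Fin r)} {η δ : ℝ} (hδ : 0 < δ) (hη : η * M ≤ 16 * δ ^ 2)
    (hG : (powG (triv G) k).Sound η) :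
    (1 / 2 - δ - 3 * (73 / 80) ^ D) * (sysOf M k D G).length ≤ minViolated (sysOf M k D G) := by
  have h1 := HA.haMap_sound hM _ hδ hη hG
  have h2 := HA.clMap_sound (D := D) (HA.haMap (r ^ k) M (powG (triv G) k)) (HA.haMap_dist3 _)
  have h3 := HA.clMap_length (D := D) (HA.haMap (r ^ k) M (powG (triv G) k))
  have h4 : (0 : ℝ) ≤ ((8 : ℝ) ^ D) ^ 3 := by positivity
  have h5 := mul_le_mul_of_nonneg_left h1 h4
  unfold sysOf
  refine le_trans (le_of_eq ?_) ((sub_le_sub_right h5 _).trans h2)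
  rw [h3]
  push_cast
  ring

/-- The choice of the parameters. -/
theorem exists_params {γ ε : ℝ} (hγ : 0 < γ) (hγ1 : γ ≤ 1) (hε : 0 < ε) : ∃ M k D : ℕ, 0 < M ∧
    ∀ (r : ℕ) [NeZero r] (G : PG ℕ ℕ (Fin r) (Fin r)), G ≠ [] →
      (G.Perfect → (minViolated (sysOf M k D G) : ℝ) ≤ ε * (sysOf M k D G).length) ∧
      (G.Sound (1 - γ) → (1 / 2 - ε) * (sysOf M k D G).length ≤ minViolated (sysOf M k D G)) := by
  obtain ⟨M0, hM0⟩ := exists_nat_gt (1 / ε)
  set M := max M0 2 with hM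
  have hM2 : 2 ≤ M := le_max_right _ _
  have hMε : 1 / ε < M := hM0.trans_le (by exact_mod_cast le_max_left _ _)
  have hMpos : (0 : ℝ) < M := by
    have : 0 < M := by omega
    exact_mod_cast this
  obtain ⟨k, hk⟩ := exists_pow (γ := γ) (η := 4 * ε ^ 2 / M) hγ hγ1 (by positivity)
  obtain ⟨D, hD⟩ := exists_pow_lt_of_lt_one (show (0 : ℝ) < ε / 6 by positivity)
    (show (73 / 80 : ℝ) < 1 by norm_num)
  refine ⟨M, k, D, by omega, fun r _ G hne => ⟨fun hG => ?_, fun hG => ?_⟩⟩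
  · have h1 := sysOf_complete (by omega : 0 < M) k D hG
    have h2 : (minViolated (sysOf M k D G) : ℝ) ≤ (sysOf M k D G).length / M := by
      rw [le_div_iff₀ hMpos]
      exact h1
    refine h2.trans ?_
    rw [div_le_iff₀ hMpos]
    have h3 : 1 ≤ ε * M := by
      rw [div_lt_iff₀ hε] at hMε
      linarith
    have h4 : (0 : ℝ) ≤ (sysOf M k D G).length := Nat.cast_nonneg _
    nlinarith
  · have h1 := sysOf_sound hM2 k D (δ := ε / 2) (by positivity)
      (by rw [div_mul_cancel₀ _ hMpos.ne']; nlinarith [sq_nonneg ε]) (hk r G hne hG)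
    refine le_trans (mul_le_mul_of_nonneg_right ?_ (Nat.cast_nonneg _)) h1
    linarith

end Vale.Agent.P333.NP
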