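import Vale.Agent.Lib.PCP.Round
import Vale.Agent.Lib.PCP.PT.Round

/-!
The PCP theorem as a polynomial time map from 3-CNF formulas to constraint graphs with a constant
gap, from the rounds of gap amplification.
-/

namespace Vale.Agent.P333.NP

open Vale.Agent.Lib.PCP Vale.Agent.Lib.PolyTime

/-- Three bits of a letter of the alphabet after alphabet reduction. -/
def btS (s : ARAlph) (i : Fin 3) : Bool := decide (s (Fin.castLE (by omega) i) = 1)

/-- A letter with given three bits. -/
def mkS (x : Fin 3 → Bool) : ARAlph := fun j =>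
  if h : j.val < 3 then (if x ⟨j.val, h⟩ then 1 else 0) else 0

theorem btS_mkS (x : Fin 3 → Bool) : btS (mkS x) = x := by
  funext i
  have h : (Fin.castLE (n := 3) (m := 11) (by omega) i).val < 3 := i.2
  unfold btS mkS
  rw [dif_pos h]
  have h2 : (⟨(Fin.castLE (n := 3) (m := 11) (by omega) i).val, h⟩ : Fin 3) = i := rfl
  rw [h2]
  cases x i <;> decide

theorem roundMap_eq (R : ℕ) :
    roundMap R = dinurRound (S := ARAlph) R (2 * R + 1) (PW.finRev 17 drRev) := rfl

theorem PT_roundMap (R : ℕ) : PT ∅ (fun G : CG ARAlph => roundMap R G) := by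
  rw [roundMap_eq]
  exact PT_dinurRound R (2 * R + 1) (PW.finRev 17 drRev) PT.id

theorem roundMap_ids (R : ℕ) :
    ∃ K, ∀ G : CG ARAlph, idBd (roundMap R G) (K * (G.length + 1)) := by
  rw [roundMap_eq]
  exact dinurRound_ids R (2 * R + 1) (PW.finRev 17 drRev) (fun G v hv i _ => drNb_lt G hv)

/-- **PCP theorem.** A polynomial time map from 3-CNF formulas to constraint graphs over a fixed
finite alphabet: satisfiable formulas give satisfiable constraint graphs, unsatisfiable formulas
give constraint graphs in which every assignment violates at least a fraction `γ` of the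
constraints. -/
theorem pcp : ∃ (S : Type) (_ : Fintype S) (_ : DecidableEq S) (s0 s1 : S) (γ : ℝ)
    (F : CNF3 → CG S), s0 ≠ s1 ∧ 0 < γ ∧ γ ≤ 1 ∧ (∀ φ, F φ ≠ []) ∧ (∀ φ, φ.Sat → Sat (F φ)) ∧
      (∀ φ, ¬ φ.Sat → Gap (F φ) γ) ∧ PT ∅ F := by
  obtain ⟨R, K, γ, h0, h1, hR⟩ := exists_round
  obtain ⟨K', hK'⟩ := roundMap_ids R
  refine ⟨ARAlph, inferInstance, inferInstance, (fun _ => 0), (fun _ => 1), γ,
    fun φ => gapCG btS (roundMap R) φ, ?_, h0, h1, fun φ => gapCG_ne hR φ,
    fun φ hφ => gapCG_sat mkS btS_mkS hR hφ, fun φ hφ => gapCG_gap h0.le h1 hR hφ, ?_⟩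
  · intro h
    have := congrFun h 0
    revert this
    decide
  · exact PT.gapCG_of_roundOK btS (PT_roundMap R) hR hK' PT.id

end Vale.Agent.P333.NP
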