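import Vale.Agent.Lib.PCP.HA.Def
import Vale.Agent.Lib.PCP.PT.DR

/-!
The reduction to boundedly many occurrences is computable in polynomial time.
-/

namespace Vale.Agent.P333.NP

open Vale.Agent.Lib.PCP Vale.Agent.Lib.PolyTime Vale.Agent.P333

variable {A : Set Word} {α β : Type*} [Enc α] [Enc β]

/-- Maps of a fixed list. -/
theorem PT_constMap {δ : Type*} (L : List δ) {F : α → δ → β} (h : ∀ w, PT A (fun a => F a w)) :
    PT A (fun a => L.map (F a)) := by
  induction L with
  | nil => exact PT.nil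
  | cons w L ih => exact (h w).cons ih

theorem PT_natPair_cl {f g : α → ℕ} (hf : PT A f) (hg : PT A g) :
    PT A (fun a => Nat.pair (f a) (g a)) := by
  unfold Nat.pair
  exact PT.ite (hf.lt hg) ((hg.mul hg).add hf) (((hf.mul hf).add hf).add hg)

theorem PT_walk (l : List (Fin 8)) {s y : α → ℕ} (hs : PT A s) (hy : PT A y) :
    PT A (fun a => l.foldl (fun y κ => mgN (s a) κ y) (y a)) := by
  induction l generalizing y with
  | nil => exact hy
  | cons κ l ih => exact ih (y := fun a => mgN (s a) κ (y a)) (PT_mgN hs (PT.const (κ : ℕ)) hy)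

theorem PT_wk {D : ℕ} (w : Fin D → Fin 8) {s y : α → ℕ} (hs : PT A s) (hy : PT A y) :
    PT A (fun a => HA.wk (s a) w (y a)) := PT_walk (List.ofFn w) hs hy

section

variable {I : α → List Eqn}

theorem PT_occ (hI : PT A I) : PT A (fun a => HA.occ (I a)) := by
  unfold HA.occ
  exact PT.flatMap (f := fun _ (e : Eqn) => [e.1.1, e.1.2.1, e.1.2.2]) hI
    ((PT.snd'.fst.fst).cons ((PT.snd'.fst.snd.fst).cons ((PT.snd'.fst.snd.snd).cons PT.nil)))

theorem PT_ovar (hI : PT A I) {h : α → ℕ} (hh : PT A h) : PT A (fun a => HA.ovar (I a) (h a)) :=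
  (PT_occ hI).getD hh (PT.const 0)

theorem PT_odeg (hI : PT A I) {x : α → ℕ} (hx : PT A x) : PT A (fun a => HA.odeg (I a) (x a)) :=
  PT_count (PT_occ hI) hx

theorem PT_orank (hI : PT A I) {h : α → ℕ} (hh : PT A h) :
    PT A (fun a => HA.orank (I a) (h a)) :=
  PT_count ((PT_occ hI).take hh) (PT_ovar hI hh)

theorem PT_clone {D : ℕ} (w : Fin D → Fin 8) (hI : PT A I) {h : α → ℕ} (hh : PT A h) :
    PT A (fun a => HA.clone (I a) (h a) w) :=
  PT_natPair_cl (PT_ovar hI hh)
    (PT_wk w (PT_side (PT_odeg hI (PT_ovar hI hh))) (PT_orank hI hh))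

theorem PT_clEqn {D : ℕ} (w : HA.W3 D) (hI : PT A I) {e : α → ℕ} (he : PT A e) :
    PT A (fun a => HA.clEqn (I a) (e a) w) := by
  have h3 : PT A (fun a => 3 * e a) := (PT.const 3).mul he
  refine PT.pair (PT.pair (PT_clone w.1 hI h3) (PT.pair (PT_clone w.2.1 hI (h3.add (PT.const 1)))
    (PT_clone w.2.2 hI (h3.add (PT.const 2))))) ?_
  exact PT.getD (PT.map (f := fun _ (q : Eqn) => q.2) hI PT.snd'.snd) he (PT.const false)

/-- The reduction to boundedly many occurrences is computable in polynomial time. -/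
theorem PT_clMap (D : ℕ) {I : α → List Eqn} (hI : PT A I) :
    PT A (fun a => HA.clMap D (I a)) := by
  unfold HA.clMap
  refine PT.flatMap (f := fun a e => (Finset.univ : Finset (HA.W3 D)).toList.map
    fun w => HA.clEqn (I a) e w) (PT.range hI.length (PBd.length hI)) ?_
  exact PT_constMap _ fun w => PT_clEqn w (hI.comp PT.fst') PT.snd'

end

end Vale.Agent.P333.NP
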