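import Vale.Agent.Lib.PCP.HA.Def
import Vale.Agent.Lib.PCP.PT.DR

/-!
Block N3: the system of the three bit test is computable in polynomial time.
-/

namespace Vale.Agent.P333.NP

open Vale.Agent.Lib.PCP Vale.Agent.Lib.PolyTime Vale.Agent.P333

variable {A : Set Word} {α : Type*} [Enc α]

/-- Pairing of natural numbers. -/
theorem PT_natPair_ha {f g : α → ℕ} (hf : PT A f) (hg : PT A g) :
    PT A (fun a => Nat.pair (f a) (g a)) := by
  unfold Nat.pair
  exact PT.ite (hf.lt hg) ((hg.mul hg).add hf) (((hf.mul hf).add hf).add hg)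

/-- Names of the entries of the tables. -/
theorem PT_nm {r : ℕ} (t : ℕ) {u : α → ℕ} {f : α → (Fin r → Bool)} (hu : PT A u)
    (hf : PT A f) : PT A (fun a => HA.nm t (u a) (f a)) := by
  unfold HA.nm
  exact PT_natPair_ha hu (((PT.const 3).mul (PT.finComp (fun f => HA.cd f) hf)).add (PT.const t))

/-- One equation. -/
theorem PT_haEqn {r M : ℕ} [NeZero r] {c : α → ℕ × ℕ × (Fin r → Fin r)} (hc : PT A c)
    (p : HA.Idx r M) : PT A (fun a => HA.haEqn (c a) p) := by
  unfold HA.haEqn
  have h1 : PT A (fun a => HA.third (c a).2.2 p.1 p.2.1 p.2.2) :=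
    PT.finComp (fun π : Fin r → Fin r => HA.third π p.1 p.2.1 p.2.2) hc.snd.snd
  exact ((PT_nm 0 hc.snd.fst (PT.const _)).pair
    ((PT_nm 1 hc.fst (PT.const _)).pair (PT_nm 2 hc.fst h1))).pair (PT.const _)

/-- The system of equations of a projection game is computable in polynomial time. -/
theorem PT_haMap {r M : ℕ} [NeZero r] {G : α → PG ℕ ℕ (Fin r) (Fin r)} (hG : PT A G) :
    PT A (fun a => HA.haMap r M (G a)) := by
  unfold HA.haMap
  exact PT.flatMap (f := fun _ c => (Finset.univ : Finset (HA.Idx r M)).toList.map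
    fun p => HA.haEqn c p) hG (PT.mapConst _ fun p _ => PT_haEqn PT.snd' p)

end Vale.Agent.P333.NP
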