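import Vale.Agent.Lib.PCP.LC
import Vale.Agent.Lib.PCP.PT.Gadget

/-!
The clause-variable game of a constraint graph is computable in polynomial time.
-/

namespace Vale.Agent.P333.NP

open Vale.Agent.Lib.PCP Vale.Agent.Lib.PolyTime

variable {A : Set Word} {α : Type*} [Enc α]

/-- The constraints of one edge, for a fixed relation. -/
theorem PT_lcEdge {S : Type} [Fintype S] [DecidableEq S] (s0 s1 : S) {r : ℕ}
    (conv : (S × S → S) → (Fin r → Fin r)) {u v e : α → ℕ} {R : α → S → S → Bool}
    (hu : PT A u) (hv : PT A v) (hR : PT A R) (he : PT A e) :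
    PT A (fun a => ((lcEdge s0 s1 ((u a, v a, R a), e a)).map
      fun c => (c.1, c.2.1, conv c.2.2) : PG ℕ ℕ (Fin r) (Fin r))) := by
  classical
  refine PT.finCase (c := R) (f := fun (Q : S → S → Bool) a =>
    ((lcEdge s0 s1 ((u a, v a, Q), e a)).map
      fun c => (c.1, c.2.1, conv c.2.2) : PG ℕ ℕ (Fin r) (Fin r))) hR fun Q => ?_
  by_cases h : ∃ q : S × S, Q q.1 q.2 = true
  · simp only [lcEdge, if_pos h, List.map_cons, List.map_nil]
    exact PT.cons (he.pair (((PT.const 2).mul hu).pair (PT.const _)))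
      (PT.cons (he.pair (((PT.const 2).mul hv).pair (PT.const _))) (PT.const []))
  · simp only [lcEdge, if_neg h, List.map_cons, List.map_nil]
    exact PT.cons (he.pair ((((PT.const 2).mul he).add (PT.const 1)).pair (PT.const _)))
      (PT.cons (he.pair ((((PT.const 2).mul he).add (PT.const 1)).pair (PT.const _)))
        (PT.const []))

/-- The clause-variable game, with labels named by `Fin r`, in polynomial time. -/
theorem PT_lc {S : Type} [Fintype S] [DecidableEq S] (s0 s1 : S) {r : ℕ}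
    (conv : (S × S → S) → (Fin r → Fin r)) {G : α → CG S} (hG : PT A G) :
    PT A (fun a => ((lc s0 s1 (G a)).map fun c => (c.1, c.2.1, conv c.2.2) :
      PG ℕ ℕ (Fin r) (Fin r))) := by
  have h1 : PT A (fun p : α × Con S × ℕ => p.2.1) := PT.fst (PT.snd PT.id)
  have h2 : PT A (fun p : α × Con S × ℕ => p.2.1.1) := h1.fst
  have h3 : PT A (fun p : α × Con S × ℕ => p.2.1.2.1) := h1.snd.fst
  have h4 : PT A (fun p : α × Con S × ℕ => p.2.1.2.2) := h1.snd.snd
  have h5 : PT A (fun p : α × Con S × ℕ => p.2.2) := PT.snd (PT.snd PT.id)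
  refine (PT.flatMap (f := fun _ (p : Con S × ℕ) => ((lcEdge s0 s1 p).map
      fun c => (c.1, c.2.1, conv c.2.2) : PG ℕ ℕ (Fin r) (Fin r))) (PT.zipIdx hG)
    (PT_lcEdge s0 s1 conv h2 h3 h4 h5)).congr fun a => ?_
  unfold lc
  rw [List.map_flatMap]

end Vale.Agent.P333.NP
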