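import Mathlib
import Vale.Agent.P333.NP.Rep
import Vale.Agent.Lib.PCP.PT.Gadget
import Vale.Agent.Lib.PCP.PT.CNF

/-!
# Parallel repetition is computable in polynomial time
-/

namespace Vale.Agent.P333.NP

open Vale.Agent.Lib.PCP Vale.Agent.Lib.PolyTime

variable {A : Set Word} {α : Type*} [Enc α]

theorem PT_natPair_rep {f g : α → ℕ} (hf : PT A f) (hg : PT A g) :
    PT A (fun a => Nat.pair (f a) (g a)) := by
  unfold Nat.pair
  exact PT.ite (PT.lt hf hg) ((hg.mul hg).add hf) (((hf.mul hf).add hf).add hg)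

theorem PT_triv {r : ℕ} [NeZero r] {G : α → PG ℕ ℕ (Fin r) (Fin r)} (hG : PT A G) :
    PT A (fun a => triv (G a)) := by
  unfold triv
  have hc : PT A (fun p : α × (ℕ × ℕ × (Fin r → Fin r)) => p.2) := PT.snd'
  refine PT.append (PT.map (f := fun (_ : α) (c : ℕ × ℕ × (Fin r → Fin r)) =>
    (c.1, c.2.1 + 1, c.2.2)) hG ?_) (PT.map (f := fun (_ : α) (c : ℕ × ℕ × (Fin r → Fin r)) =>
    ((c.1, 0, fun _ => 0) : ℕ × ℕ × (Fin r → Fin r))) hG ?_)
  · exact hc.fst.pair ((hc.snd.fst.add (PT.const 1)).pair hc.snd.snd)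
  · exact hc.fst.pair (PT.const _)

theorem PT_prodG {r q : ℕ} {G : α → PG ℕ ℕ (Fin r) (Fin r)} {H : α → PG ℕ ℕ (Fin q) (Fin q)}
    (hG : PT A G) (hH : PT A H) : PT A (fun a => prodG (G a) (H a)) := by
  unfold prodG
  refine PT.flatMap (f := fun (a : α) (c : ℕ × ℕ × (Fin r → Fin r)) => (H a).map fun d =>
    ((Nat.pair c.1 d.1, Nat.pair c.2.1 d.2.1, fun x => finProdFinEquiv
      (c.2.2 (finProdFinEquiv.symm x).1, d.2.2 (finProdFinEquiv.symm x).2)) :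
        ℕ × ℕ × (Fin (r * q) → Fin (r * q)))) hG ?_
  refine PT.map (l := fun p : α × (ℕ × ℕ × (Fin r → Fin r)) => H p.1)
    (f := fun (p : α × (ℕ × ℕ × (Fin r → Fin r))) (d : ℕ × ℕ × (Fin q → Fin q)) =>
    ((Nat.pair p.2.1 d.1, Nat.pair p.2.2.1 d.2.1, fun x => finProdFinEquiv
      (p.2.2.2 (finProdFinEquiv.symm x).1, d.2.2 (finProdFinEquiv.symm x).2)) :
        ℕ × ℕ × (Fin (r * q) → Fin (r * q)))) (hH.comp PT.fst') ?_
  have hp : PT A (fun p : (α × (ℕ × ℕ × (Fin r → Fin r))) × (ℕ × ℕ × (Fin q → Fin q)) => p.1.2) :=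
    PT.fst'.snd
  have hd : PT A (fun p : (α × (ℕ × ℕ × (Fin r → Fin r))) × (ℕ × ℕ × (Fin q → Fin q)) => p.2) :=
    PT.snd'
  exact (PT_natPair_rep hp.fst hd.fst).pair ((PT_natPair_rep hp.snd.fst hd.snd.fst).pair
    (PT.finComp2 (fun (π : Fin r → Fin r) (π' : Fin q → Fin q) => (fun x => finProdFinEquiv
      (π (finProdFinEquiv.symm x).1, π' (finProdFinEquiv.symm x).2) :
        Fin (r * q) → Fin (r * q))) hp.snd.snd hd.snd.snd))

theorem PT_powG {r : ℕ} {G : α → PG ℕ ℕ (Fin r) (Fin r)} (hG : PT A G) (k : ℕ) :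
    PT A (fun a => powG (G a) k) := by
  induction k with
  | zero => exact PT.const (β := PG ℕ ℕ (Fin (r ^ 0)) (Fin (r ^ 0))) [(0, 0, id)]
  | succ k ih => exact PT_prodG ih hG

end Vale.Agent.P333.NP
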