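import Mathlib
import Vale.Agent.P333.NPDefs
import Vale.Agent.P333.Bdl.B1
import Vale.Agent.P333.Bdl.B2
import Vale.Agent.P333.NP.Lab
import Vale.Agent.P333.NP.PTrep
import Vale.Agent.P333.NP.PTlc
import Vale.Agent.P333.NP.PTha
import Vale.Agent.P333.NP.PTcl
import Vale.Agent.P333.NP.PCPGlue
import Vale.Agent.Lib.PCP.CL.Main

/-!
# NP-hardness of the gap problem for systems of linear equations and of the approximation of the
shortest common superstring
-/

namespace Vale.Agent.P333.NP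

open Vale.Agent.Lib.PCP Vale.Agent.Lib.PolyTime Vale.Agent.P333

/-- Every language in NP reduces to the gap problem for bounded systems of linear equations. -/
theorem np_gap {L : Set (List Bool)} (hL : L ∈ classNP) {ε : ℝ} (hε : 0 < ε) :
    ∃ (d : ℕ) (Φ : List Bool → List Eqn) (g : List Bool → List Bool), FP ∅ g ∧
      (∀ x, g x = enc (Φ x)) ∧ ∀ x, Φ x ≠ [] ∧ Bounded d (Φ x) ∧
      (x ∈ L → (minViolated (Φ x) : ℝ) ≤ ε * (Φ x).length) ∧
      (x ∉ L → (1 / 2 - ε) * (Φ x).length ≤ minViolated (Φ x)) := by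
  obtain ⟨V, p, ⟨MV⟩, hV⟩ := hL
  obtain ⟨W, hW, hW'⟩ := exists_FP_of_tm2 (A := ∅) MV
  have hW2 : ∀ x y, W (pr x y) = [V (x, y)] := by
    intro x y
    rw [← hW' (x, y), pairW_eq]
  obtain ⟨F, hF, hF'⟩ := CL.cook_levin (L := L) hW p fun x => by
    rw [hV x]
    refine exists_congr fun y => and_congr_right fun _ => ?_
    rw [hW2]
    simp
  obtain ⟨S, _, _, s0, s1, γ, P, hs, hγ, hγ1, hPne, hPs, hPg, hP⟩ := pcp
  have hne : Nonempty (S × S) := ⟨(s0, s0)⟩
  set r := Fintype.card (S × S) with hr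
  have hr0 : NeZero r := ⟨Fintype.card_ne_zero⟩
  let e : S × S ≃ Fin r := Fintype.equivFin (S × S)
  obtain ⟨M, k, D, hM, hMkD⟩ := exists_params (γ := γ / 2) (ε := ε) (by positivity)
    (by linarith) hε
  have hPT : PT ∅ (fun φ : CNF3 => sysOf M k D (lcN e s0 s1 (P φ))) := by
    have h1 : PT ∅ (fun φ : CNF3 => lcN e s0 s1 (P φ)) := PT_lc s0 s1 (conv e s0) hP
    exact PT_clMap D (PT_haMap (PT_powG (PT_triv h1) k))
  obtain ⟨g, hg, hg'⟩ := hPT
  refine ⟨(8 ^ D) ^ 3, fun x => sysOf M k D (lcN e s0 s1 (P (F x))), fun x => g (enc (F x)),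
    hg.comp hF, fun x => hg' (F x), fun x => ⟨?_, ?_, ?_, ?_⟩⟩
  · exact sysOf_ne hM k D (lcN_ne e (hPne _))
  · exact sysOf_bounded M k D _
  · intro hx
    exact (hMkD r _ (lcN_ne e (hPne _))).1 (lcN_perfect e (hPs _ ((hF' x).1 hx)))
  · intro hx
    exact (hMkD r _ (lcN_ne e (hPne _))).2
      (lcN_sound e hs (hPg _ fun h => hx ((hF' x).2 h)))

/-- The gap problem is NP-hard. -/
theorem gapDecidable_imp {ε : ℝ} (hε : 0 < ε) (h : ∀ d, GapDecidable ε d) :
    classNP ⊆ classP := by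
  intro L hL
  obtain ⟨d, Φ, g, hg, hg', hΦ⟩ := np_gap hL hε
  obtain ⟨dec, ⟨Md⟩, hdec⟩ := h d
  obtain ⟨W, hW, hW'⟩ := exists_FP_of_tm2 (A := ∅) Md
  refine ⟨fun x => dec (Φ x), ?_, ?_⟩
  · refine tm2_of_polyTimeFun _ _ _ (fun x => W (g x)) (polyTimeFun_iff.2 (hW.comp hg)) fun x => ?_
    rw [hg', ← systemW_eq]
    exact hW' _
  · intro x
    obtain ⟨h1, h2, h3, h4⟩ := hΦ x
    obtain ⟨h5, h6⟩ := hdec (Φ x) h1 h2
    refine ⟨fun hx => h5 (h3 hx), fun hx => ?_⟩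
    by_contra hx'
    have h7 := h6 (h4 hx')
    dsimp only at hx
    rw [hx] at h7
    exact absurd h7 (by simp)

/-- P is contained in NP. -/
theorem classP_subset : classP ⊆ classNP := by
  intro L hL
  obtain ⟨dec, ⟨Md⟩, hdec⟩ := hL
  obtain ⟨W, hW, hW'⟩ := exists_FP_of_tm2 (A := ∅) Md
  refine ⟨fun z => dec z.1, 0, ?_, ?_⟩
  · refine tm2_of_polyTimeFun _ _ _ (fun x => W (fstW x))
      (polyTimeFun_iff.2 (hW.comp FP.fst)) fun z => ?_
    rw [pairW_eq, fstW_pr]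
    exact hW' z.1
  · intro x
    rw [hdec x]
    refine ⟨fun h => ⟨[], by simp, h⟩, ?_⟩
    rintro ⟨y, _, h⟩
    exact h

/-- An approximation with ratio below `131/130` implies that NP equals P. -/
theorem np_eq_p (ρ : ℝ) (hρ : ρ < 131 / 130) (h : HasApprox ρ) : classNP = classP := by
  obtain ⟨ε, h0, _, h2⟩ := approx_gap (fun ε hε k hk => exists_amp k hk ε hε) ρ hρ
  exact Set.Subset.antisymm (gapDecidable_imp h0 (h2 h)) classP_subset

/-- NP-hardness of the approximation of the shortest common superstring. -/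
theorem np_hard (ρ : ℝ) (hρ : ρ < 131 / 130) (L : Set (List Bool)) (hL : L ∈ classNP) :
    ∃ (f : List Bool → List (List ℕ)) (k : List Bool → ℕ),
      PolyTime (fun w : List Bool => w) familyW f ∧ PolyTime (fun w : List Bool => w) Nat.bits k ∧
      ∀ x, (x ∈ L → opt (f x) ≤ k x) ∧ (x ∉ L → ρ * k x < opt (f x)) := by
  obtain ⟨ρ', hρρ', hρ'1, hρ'2⟩ : ∃ ρ', ρ ≤ ρ' ∧ 1 ≤ ρ' ∧ ρ' < 131 / 130 :=
    ⟨max ρ 1, le_max_left _ _, le_max_right _ _, max_lt hρ (by norm_num)⟩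
  set ε : ℝ := (131 - 130 * ρ') / 10 with hε
  have hε0 : 0 < ε := by rw [hε]; linarith only [hρ'2]
  obtain ⟨d, Φ, g, hg, hg', hΦ⟩ := np_gap hL hε0
  obtain ⟨t, f, ht, ⟨Mf⟩, hgap⟩ := reduction (fun ε hε k hk => exists_amp k hk ε hε) ε hε0 d
  obtain ⟨W, hW, hW'⟩ := exists_FP_of_tm2 (A := ∅) Mf
  have hlt : ρ' * (130 + 3 * ε) < 131 - 3 * ε := by nlinarith only [hε, hρ'2]
  have hlt2 : 130 + 3 * ε < (131 - 3 * ε) / ρ' := by
    rw [lt_div_iff₀ (by linarith)]
    linarith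
  obtain ⟨q, hq1, hq2⟩ := exists_rat_btwn hlt2
  have hq0 : (0 : ℝ) < q := lt_of_le_of_lt (by positivity) hq1
  have hq0' : 0 < q := by exact_mod_cast hq0
  obtain ⟨N, hN⟩ : ∃ N : ℕ, (N : ℤ) = q.num := ⟨q.num.toNat, Int.toNat_of_nonneg
    (Rat.num_nonneg.2 hq0'.le)⟩
  have hD : (0 : ℝ) < q.den := by exact_mod_cast q.den_pos
  have hqN : (q : ℝ) * q.den = N := by
    have h1 : (q : ℚ) * q.den = q.num := Rat.mul_den_eq_num q
    have h2 : ((q : ℝ)) * (q.den : ℝ) = (q.num : ℝ) := by exact_mod_cast h1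
    rw [h2, ← hN]
    simp
  -- the bound
  have hPTk : PT ∅ (fun I : List Eqn => t * I.length * N / q.den) :=
    PT.div (((PT.const t).mul PT.id.length).mul (PT.const N)) (PT.const q.den)
  obtain ⟨K, hK, hK'⟩ := hPTk
  refine ⟨fun x => f (Φ x), fun x => t * (Φ x).length * N / q.den, ?_, ?_, ?_⟩
  · refine tm2_of_polyTimeFun _ _ _ (fun x => W (g x)) (polyTimeFun_iff.2 (hW.comp hg)) fun x => ?_
    rw [hg', ← systemW_eq]
    exact hW' _
  · refine tm2_of_polyTimeFun _ _ _ (fun x => K (g x)) (polyTimeFun_iff.2 (hK.comp hg)) fun x => ?_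
    rw [hg', hK']
    rfl
  · intro x
    obtain ⟨h1, h2, h3, h4⟩ := hΦ x
    have h5 := abs_le.1 (hgap (Φ x) h2)
    have hm : (0 : ℝ) < (Φ x).length := by
      have := List.length_pos_iff.2 h1
      exact_mod_cast this
    have htr : (0 : ℝ) < t := by exact_mod_cast ht
    have htm : (0 : ℝ) < t * (Φ x).length := by positivity
    have hkr : ((t * (Φ x).length * N / q.den : ℕ) : ℝ) ≤ q * (t * (Φ x).length) := by
      refine (Nat.cast_div_le (α := ℝ)).trans ?_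
      rw [div_le_iff₀ hD]
      push_cast
      rw [← hqN]
      apply le_of_eq
      ring
    refine ⟨fun hx => ?_, fun hx => ?_⟩
    · rw [Nat.le_div_iff_mul_le q.den_pos]
      have h6 := h3 hx
      have h7 : (opt (f (Φ x)) : ℝ) ≤ q * (t * (Φ x).length) := by
        have h8 : (opt (f (Φ x)) : ℝ) ≤ (130 + 3 * ε) * (t * (Φ x).length) := by
          have h9 := mul_le_mul_of_nonneg_left h6 htr.le
          nlinarith [h5.2]
        exact h8.trans (mul_le_mul_of_nonneg_right hq1.le htm.le)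
      have h10 : (opt (f (Φ x)) : ℝ) * q.den ≤ t * (Φ x).length * N := by
        rw [← hqN]
        nlinarith [mul_le_mul_of_nonneg_right h7 hD.le]
      exact_mod_cast h10
    · have h6 := h4 hx
      have h8 : (131 - 3 * ε) * (t * (Φ x).length) ≤ (opt (f (Φ x)) : ℝ) := by
        have h9 := mul_le_mul_of_nonneg_left h6 htr.le
        nlinarith [h5.1]
      have hk0 : (0 : ℝ) ≤ ((t * (Φ x).length * N / q.den : ℕ) : ℝ) := Nat.cast_nonneg _
      calc ρ * ((t * (Φ x).length * N / q.den : ℕ) : ℝ)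
          ≤ ρ' * ((t * (Φ x).length * N / q.den : ℕ) : ℝ) := mul_le_mul_of_nonneg_right hρρ' hk0
        _ ≤ ρ' * (q * (t * (Φ x).length)) := mul_le_mul_of_nonneg_left hkr (by linarith)
        _ = (ρ' * q) * (t * (Φ x).length) := by ring
        _ < (131 - 3 * ε) * (t * (Φ x).length) := by
            refine mul_lt_mul_of_pos_right ?_ htm
            rw [lt_div_iff₀ (by linarith)] at hq2
            linarith
        _ ≤ _ := h8

/-! ### The best ratio -/

theorem one_le_of_hasApprox {ρ : ℝ} (h : HasApprox ρ) : 1 ≤ ρ := by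
  obtain ⟨alg, _, h2⟩ := h
  obtain ⟨h3, h4⟩ := h2 [[0]]
  have h5 : opt [[0]] ≤ 1 := Nat.sInf_le ⟨[0], by intro s hs; simp at hs; simp [hs], rfl⟩
  have h6 : 1 ≤ (alg [[0]]).length := by
    have := (h3 [0] (by simp)).length_le
    simpa using this
  have h7 : (1 : ℝ) ≤ (alg [[0]]).length := by exact_mod_cast h6
  have h8 : (opt [[0]] : ℝ) ≤ 1 := by exact_mod_cast h5
  have h9 : (0 : ℝ) ≤ opt [[0]] := Nat.cast_nonneg _
  by_contra hlt
  push Not at hlt
  rcases le_or_gt ρ 0 with h10 | h10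
  · nlinarith
  · nlinarith

theorem bestRatio_le {ρ : ℝ} (h : HasApprox ρ) : bestRatio ≤ ρ :=
  csInf_le ⟨1, fun _ hx => one_le_of_hasApprox hx⟩ h

theorem le_bestRatio {c : ℝ} (hne : ∃ ρ, HasApprox ρ) (h : ∀ ρ, ρ < c → ¬ HasApprox ρ) :
    c ≤ bestRatio := by
  obtain ⟨ρ, hρ⟩ := hne
  refine le_csInf ⟨ρ, hρ⟩ fun x hx => ?_
  by_contra hlt
  push Not at hlt
  exact h x hlt hx

end Vale.Agent.P333.NP
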